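import Vale.Agent.P092.H710.Re.Top
import Mathlib.LinearAlgebra.Matrix.AbsoluteValue

/-!
P092, project RE, block [RE-P] (helper710), part 4: **Bnd**, the dominant element is determined up to
a bounded error.
-/

set_option linter.all false

open Matrix Filter Topology

namespace Vale.Agent.P092.H710.Re

open Vale.Agent.P092.H793.Re

variable {n j : ℕ} {G : Type} [Group G] [TopologicalSpace G] {ρ : G →* SLn n}

theorem U_weight (ha : ∀ g, ∃ g', (ρ g').1 = (ρ g).1ᵀ) {h : Fin n → ℝ} {r : ℕ}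
    {p q : Fin r → Fin n} {w : Fin r → Fin n → ℝ} {E : Fin r → Mat n} (hS : Sr ρ h p q w E)
    (e : Fin j → Fin n) : ∀ u ∈ U ρ h e, ∀ a, u a ≠ 0 → ∀ x, Dom ρ p q x →
      ∑ i, x (a i) ≤ ∑ i, x (e i) := by
  let W : Submodule ℝ (V n j) :=
    { carrier := {u | ∀ a, u a ≠ 0 → ∀ x, Dom ρ p q x → ∑ i, x (a i) ≤ ∑ i, x (e i)}
      add_mem' := by
        intro u u' hu hu' a hne x hx
        by_cases h1 : u a = 0
        · refine hu' a ?_ x hx
          intro h2
          exact hne (by rw [Pi.add_apply, h1, h2, add_zero])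
        · exact hu a h1 x hx
      zero_mem' := fun a hne => absurd rfl hne
      smul_mem' := by
        intro c u hu a hne x hx
        refine hu a ?_ x hx
        intro h2
        exact hne (by rw [Pi.smul_apply, h2, smul_zero]) }
  have hW : U ρ h e ≤ W := by
    refine U_le ?_ ?_
    · intro a hne x hx
      exact (tv_weight hne x).le
    · intro Y hY u hu a hne x hx
      rw [D_apply2] at hne
      obtain ⟨i, _, hi⟩ := Finset.exists_ne_zero_of_sum_ne_zero hne
      obtain ⟨s, _, hs⟩ := Finset.exists_ne_zero_of_sum_ne_zero hi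
      have h1 : Y (a i) s ≠ 0 := left_ne_zero_of_mul hs
      have h2 : u (Function.update a i s) ≠ 0 := right_ne_zero_of_mul hs
      have h3 := hu _ h2 x hx
      obtain ⟨m, hm⟩ := hS.root Yᵀ (lie_transpose ha hY.1) s (a i) h1 (hY.2 _ _ h1)
      have h4 := hm x hx.1
      have h5 : 0 ≤ ∑ k, (m k : ℝ) * (x (p k) - x (q k)) :=
        Finset.sum_nonneg fun k _ => mul_nonneg (Nat.cast_nonneg _) (hx.2 k)
      refine le_trans ?_ h3
      refine Finset.sum_le_sum fun k _ => ?_
      by_cases hk : k = i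
      · subst hk
        rw [Function.update_self]
        linarith
      · rw [Function.update_of_ne hk]
  exact fun u hu => hW hu

theorem F_bound (he : IsClosedEmbedding ρ) (ha : ∀ g, ∃ g', (ρ g').1 = (ρ g).1ᵀ)
    (hgen : Subgroup.closure {g : G | ∃ X, Lie ρ X ∧ (ρ g).1 = NormedSpace.exp X} = ⊤)
    {h : Fin n → ℝ} (hh : Lie ρ (diagonal h)) {r : ℕ}
    {p q : Fin r → Fin n} {w : Fin r → Fin n → ℝ} {E : Fin r → Mat n} (hSr : Sr ρ h p q w E)
    {e : Fin j → Fin n} (hinj : Function.Injective e)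
    (hS : ∀ a ∉ Set.range e, ∀ l, h a < h (e l)) (C : ℝ) : ∃ K : ℝ,
      ∀ (g g' : G) (x y : Fin n → ℝ), (∀ a b, |(ρ g).1 a b| ≤ C) → (∀ a b, |(ρ g').1 a b| ≤ C) →
      Dom ρ p q x → diagonal (fun a => Real.exp (y a)) =
        (ρ g).1 * diagonal (fun a => Real.exp (x a)) * (ρ g').1 →
      ∑ i, y (e i) ≤ ∑ i, x (e i) + K := by
  obtain ⟨B, hB⟩ : ∃ B, ∀ a, |tv e a| ≤ B := by
    refine ⟨∑ a, |tv e a|, fun a => ?_⟩
    exact Finset.single_le_sum (f := fun a => |tv e a|) (fun a _ => abs_nonneg _)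
      (Finset.mem_univ a)
  set M : ℝ := (Fintype.card (Fin j → Fin n) : ℝ) with hM
  set K1 : ℝ := M * (C ^ j * (M * (C ^ j * B))) with hK1
  refine ⟨Real.log (max 1 K1), fun g g' x y hg hg' hx heq => ?_⟩
  have hpos : 0 < max 1 K1 := lt_of_lt_of_le one_pos (le_max_left _ _)
  have h1 : ∀ a, |T (ρ g').1 (tv e) a| ≤ M * (C ^ j * B) := fun a => T_bound hg' hB a
  have h2 : T (ρ g').1 (tv e) ∈ U ρ h e := T_mem he hgen hh hinj hS g' _ (tv_mem h e)
  have h3 : ∀ a, |T (diagonal fun a => Real.exp (x a)) (T (ρ g').1 (tv e)) a| ≤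
      Real.exp (∑ i, x (e i)) * (M * (C ^ j * B)) := by
    intro a
    rw [T_diag, abs_mul, ← Real.exp_sum, abs_of_pos (Real.exp_pos _)]
    by_cases h0 : T (ρ g').1 (tv e) a = 0
    · rw [h0, abs_zero, mul_zero]
      have : 0 ≤ M * (C ^ j * B) := (abs_nonneg _).trans (h1 a)
      positivity
    · exact mul_le_mul (Real.exp_le_exp.2 (U_weight ha hSr e _ h2 a h0 x hx)) (h1 a)
        (abs_nonneg _) (Real.exp_pos _).le
  have h4 := T_bound hg h3 e
  rw [← T_mul, ← T_mul, ← mul_assoc, ← heq, T_diag, tv_self hinj, mul_one, ← Real.exp_sum,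
    abs_of_pos (Real.exp_pos _)] at h4
  have h5 : Real.exp (∑ i, y (e i)) ≤ Real.exp (∑ i, x (e i) + Real.log (max 1 K1)) := by
    rw [Real.exp_add, Real.exp_log hpos]
    calc _ ≤ Real.exp (∑ i, x (e i)) * K1 := by
          refine h4.trans (le_of_eq ?_)
          rw [hK1]; ring
      _ ≤ _ := mul_le_mul_of_nonneg_left (le_max_right _ _) (Real.exp_pos _).le
  exact Real.exp_le_exp.1 h5

theorem inv_bound {C : ℝ} {g : G} (hg : ∀ a b, |(ρ g).1 a b| ≤ C) (a b : Fin n) :
    |(ρ g⁻¹).1 a b| ≤ (n.factorial : ℝ) * (max C 1) ^ n := by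
  have h1 : (ρ g⁻¹).1 = adjugate (ρ g).1 := by
    rw [map_inv, Matrix.SpecialLinearGroup.coe_inv]
  rw [h1, Matrix.adjugate_apply]
  have h2 := Matrix.det_le (abv := IsAbsoluteValue.toAbsoluteValue (abs : ℝ → ℝ))
    (A := (ρ g).1.updateRow b (Pi.single a 1)) (x := max C 1) (by
      intro i k
      show |_| ≤ _
      by_cases hi : i = b
      · subst hi
        rw [Matrix.updateRow_self]
        by_cases hk : k = a
        · subst hk; simp
        · rw [Pi.single_eq_of_ne hk, abs_zero]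
          exact le_trans zero_le_one (le_max_right _ _)
      · rw [Matrix.updateRow_ne hi]
        exact (hg _ _).trans (le_max_left _ _))
  simp only [Fintype.card_fin, nsmul_eq_mul] at h2
  exact h2

theorem S_bound (he : IsClosedEmbedding ρ) (ha : ∀ g, ∃ g', (ρ g').1 = (ρ g).1ᵀ)
    (hgen : Subgroup.closure {g : G | ∃ X, Lie ρ X ∧ (ρ g).1 = NormedSpace.exp X} = ⊤)
    {h : Fin n → ℝ} (hh : Lie ρ (diagonal h)) {r : ℕ}
    {p q : Fin r → Fin n} {w : Fin r → Fin n → ℝ} {E : Fin r → Mat n} (hSr : Sr ρ h p q w E)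
    (S : Finset (Fin n)) (hS : ∀ a ∉ S, ∀ b ∈ S, h a < h b) (C : ℝ) : ∃ K : ℝ,
      ∀ (g g' : G) (x y : Fin n → ℝ), (∀ a b, |(ρ g).1 a b| ≤ C) → (∀ a b, |(ρ g').1 a b| ≤ C) →
      Dom ρ p q x → Dom ρ p q y → diagonal (fun a => Real.exp (y a)) =
        (ρ g).1 * diagonal (fun a => Real.exp (x a)) * (ρ g').1 →
      |∑ b ∈ S, x b - ∑ b ∈ S, y b| ≤ K := by
  let e : Fin S.card → Fin n := fun i => (S.equivFin.symm i : Fin n)
  have hinj : Function.Injective e := Subtype.val_injective.comp S.equivFin.symm.injective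
  have hr : ∀ a, a ∈ Set.range e ↔ a ∈ S := by
    intro a
    constructor
    · rintro ⟨i, rfl⟩
      exact (S.equivFin.symm i).2
    · intro haS
      exact ⟨S.equivFin ⟨a, haS⟩, by simp [e]⟩
  have hS' : ∀ a ∉ Set.range e, ∀ l, h a < h (e l) := by
    intro a hae l
    refine hS a (fun h1 => hae ((hr a).2 h1)) _ ((hr _).1 ⟨l, rfl⟩)
  have hsum : ∀ x : Fin n → ℝ, ∑ i, x (e i) = ∑ b ∈ S, x b := by
    intro x
    rw [← Finset.sum_coe_sort S x, ← Equiv.sum_comp S.equivFin.symm]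
  set C2 : ℝ := (n.factorial : ℝ) * (max C 1) ^ n with hC2
  obtain ⟨K, hK⟩ := F_bound he ha hgen hh hSr hinj hS' C
  obtain ⟨K', hK'⟩ := F_bound he ha hgen hh hSr hinj hS' C2
  refine ⟨max K K', fun g g' x y hg hg' hx hy heq => ?_⟩
  have h1 := hK g g' x y hg hg' hx heq
  have h2 := hK' g⁻¹ g'⁻¹ y x (inv_bound hg) (inv_bound hg') hy (by
    rw [heq]
    rw [show (ρ g⁻¹).1 * ((ρ g).1 * diagonal (fun a => Real.exp (x a)) * (ρ g').1) * (ρ g'⁻¹).1 =
      ((ρ g⁻¹).1 * (ρ g).1) * diagonal (fun a => Real.exp (x a)) * ((ρ g').1 * (ρ g'⁻¹).1) by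
        simp only [mul_assoc]]
    rw [coe_inv_mul, coe_mul_inv, one_mul, mul_one])
  rw [hsum, hsum] at h1 h2
  rw [abs_le]
  constructor
  · have := le_max_left K K'
    linarith
  · have := le_max_right K K'
    linarith

/-- **[RE-P]**, from the generation of the group by exponentials -/
theorem bnd_of (he : IsClosedEmbedding ρ) (ha : ∀ g, ∃ g', (ρ g').1 = (ρ g).1ᵀ)
    (hgen : Subgroup.closure {g : G | ∃ X, Lie ρ X ∧ (ρ g).1 = NormedSpace.exp X} = ⊤)
    {h : Fin n → ℝ} (hD : Dg ρ h) {r : ℕ}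
    {p q : Fin r → Fin n} {w : Fin r → Fin n → ℝ} {E : Fin r → Mat n} (hSr : Sr ρ h p q w E)
    (C : ℝ) : ∃ C' : ℝ, ∀ (g g' : G) (x y : Fin n → ℝ),
      (∀ a b, |(ρ g).1 a b| ≤ C) → (∀ a b, |(ρ g').1 a b| ≤ C) → Dom ρ p q x → Dom ρ p q y →
      diagonal (fun a => Real.exp (y a)) =
        (ρ g).1 * diagonal (fun a => Real.exp (x a)) * (ρ g').1 → ∀ a, |x a - y a| ≤ C' := by
  classical
  have h1 : ∀ a : Fin n, ∃ K : ℝ, ∀ (g g' : G) (x y : Fin n → ℝ),
      (∀ a b, |(ρ g).1 a b| ≤ C) → (∀ a b, |(ρ g').1 a b| ≤ C) → Dom ρ p q x → Dom ρ p q y →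
      diagonal (fun a => Real.exp (y a)) =
        (ρ g).1 * diagonal (fun a => Real.exp (x a)) * (ρ g').1 → |x a - y a| ≤ K := by
    intro a
    let S1 : Finset (Fin n) := Finset.univ.filter fun b => h a ≤ h b
    let S2 : Finset (Fin n) := Finset.univ.filter fun b => h a < h b
    let S3 : Finset (Fin n) := Finset.univ.filter fun b => h b = h a
    obtain ⟨K1, hK1⟩ := S_bound he ha hgen hD.lie hSr S1 (by
      intro c hc b hb
      simp only [S1, Finset.mem_filter, Finset.mem_univ, true_and, not_le] at hc hb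
      linarith) C
    obtain ⟨K2, hK2⟩ := S_bound he ha hgen hD.lie hSr S2 (by
      intro c hc b hb
      simp only [S2, Finset.mem_filter, Finset.mem_univ, true_and, not_lt] at hc hb
      linarith) C
    refine ⟨K1 + K2, fun g g' x y hg hg' hx hy heq => ?_⟩
    have e1 := hK1 g g' x y hg hg' hx hy heq
    have e2 := hK2 g g' x y hg hg' hx hy heq
    have hsplit : ∀ f : Fin n → ℝ, ∑ b ∈ S1, f b = ∑ b ∈ S2, f b + ∑ b ∈ S3, f b := by
      intro f
      rw [← Finset.sum_union]
      · refine Finset.sum_congr ?_ fun _ _ => rfl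
        ext b
        simp only [S1, S2, S3, Finset.mem_union, Finset.mem_filter, Finset.mem_univ, true_and]
        constructor
        · intro hb
          rcases hb.lt_or_eq with h5 | h5
          · exact Or.inl h5
          · exact Or.inr h5.symm
        · rintro (hb | hb)
          · exact hb.le
          · exact hb.ge
      · rw [Finset.disjoint_left]
        intro b hb hb'
        simp only [S2, S3, Finset.mem_filter, Finset.mem_univ, true_and] at hb hb'
        linarith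
    have hconst : ∀ z : Fin n → ℝ, Lie ρ (diagonal z) →
        ∑ b ∈ S3, z b = (S3.card : ℝ) * z a := by
      intro z hz
      rw [← nsmul_eq_mul, ← Finset.sum_const]
      refine Finset.sum_congr rfl fun b hb => ?_
      simp only [S3, Finset.mem_filter, Finset.mem_univ, true_and] at hb
      have := hD.gen b a a a (by rw [hb]) z hz
      linarith
    have h3 : (1 : ℝ) ≤ S3.card := by
      have : 0 < S3.card := Finset.card_pos.2 ⟨a, by simp [S3]⟩
      exact_mod_cast this
    rw [hsplit, hsplit, hconst x hx.1, hconst y hy.1] at e1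
    have h4 : |(S3.card : ℝ) * (x a - y a)| ≤ K1 + K2 := by
      have e3 : (S3.card : ℝ) * (x a - y a) =
          (∑ b ∈ S2, x b + (S3.card : ℝ) * x a - (∑ b ∈ S2, y b + (S3.card : ℝ) * y a)) -
            (∑ b ∈ S2, x b - ∑ b ∈ S2, y b) := by ring
      rw [e3]
      exact (abs_sub _ _).trans (add_le_add e1 e2)
    rw [abs_mul, abs_of_nonneg (by linarith : (0 : ℝ) ≤ S3.card)] at h4
    nlinarith [abs_nonneg (x a - y a)]
  choose K hK using h1
  refine ⟨∑ a, |K a|, fun g g' x y hg hg' hx hy heq a => ?_⟩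
  refine (hK a g g' x y hg hg' hx hy heq).trans ((le_abs_self _).trans ?_)
  exact Finset.single_le_sum (f := fun a => |K a|) (fun a _ => abs_nonneg _) (Finset.mem_univ a)

end Vale.Agent.P092.H710.Re
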