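import Vale.Agent.P092.H710.Re.Bnd
import Vale.Agent.P092.H793.Re.L4

/-!
P092, project RE, block [RE-P] (helper710): **`bnd : Bnd`**.
-/

set_option linter.all false

namespace Vale.Agent.P092.H710.Re

open Vale.Agent.P092.H793.Re

/-- **[RE-P]** -/
theorem bnd : Bnd := by
  intro n G _ _ ρ h r p q w E hρ hD hS C
  exact bnd_of hρ.emb hρ.adj (gen hρ) hD hS C

end Vale.Agent.P092.H710.Re
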