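import Vale.Agent.P092.H710.Re.Ten
import Vale.Agent.P092.H793.Re.L
import Mathlib.Analysis.Calculus.MeanValue
import Mathlib.Analysis.Calculus.Deriv.Prod
import Mathlib.Topology.Algebra.Module.FiniteDimension
import Mathlib.Analysis.Normed.Module.FiniteDimension

/-!
P092, project RE, block [RE-P] (helper710), part 2: `T (exp X) = exp (D X)`, in the form: a subspace
which is stable under `D X` is stable under `T (exp X)`.
-/

set_option linter.all false

open Matrix Filter Topology

namespace Vale.Agent.P092.H710.Re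

open Vale.Agent.P092.H793.Re

attribute [local instance] Matrix.linftyOpNormedRing Matrix.linftyOpNormedAlgebra

variable {n j : ℕ}

theorem hasDerivAt_exp_entry (X : Mat n) (a b : Fin n) (t : ℝ) :
    HasDerivAt (fun t : ℝ => NormedSpace.exp (t • X) a b)
      ((X * NormedSpace.exp (t • X)) a b) t := by
  have h1 := hasDerivAt_exp_smul_const' (𝕂 := ℝ) X t
  let L : Mat n →L[ℝ] ℝ := LinearMap.toContinuousLinearMap
    { toFun := fun M => M a b
      map_add' := fun _ _ => rfl
      map_smul' := fun _ _ => rfl }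
  exact (L.hasFDerivAt.comp_hasDerivAt t h1)

theorem hasDerivAt_T (X : Mat n) (u : V n j) (t : ℝ) :
    HasDerivAt (fun t : ℝ => T (NormedSpace.exp (t • X)) u)
      (D X (T (NormedSpace.exp (t • X)) u)) t := by
  rw [hasDerivAt_pi]
  intro a
  have h1 : ∀ b : Fin j → Fin n, HasDerivAt
      (fun t : ℝ => (∏ i, NormedSpace.exp (t • X) (a i) (b i)) * u b)
      ((∑ i, (∏ k ∈ Finset.univ.erase i, NormedSpace.exp (t • X) (a k) (b k)) •
        (X * NormedSpace.exp (t • X)) (a i) (b i)) * u b) t := by
    intro b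
    exact (HasDerivAt.fun_finsetProd (u := Finset.univ)
      (f := fun i t => NormedSpace.exp (t • X) (a i) (b i))
      (f' := fun i => (X * NormedSpace.exp (t • X)) (a i) (b i))
      (fun i _ => hasDerivAt_exp_entry X (a i) (b i) t)).mul_const (u b)
  have h2 := HasDerivAt.fun_sum (u := Finset.univ) fun b _ => h1 b
  refine h2.congr_deriv ?_
  rw [D_apply2]
  simp only [T_apply, Finset.sum_mul, Finset.mul_sum, Matrix.mul_apply, smul_eq_mul]
  rw [Finset.sum_comm]
  refine Finset.sum_congr rfl fun i _ => ?_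
  rw [Finset.sum_comm]
  refine Finset.sum_congr rfl fun s _ => Finset.sum_congr rfl fun b _ => ?_
  rw [← Finset.mul_prod_erase Finset.univ (fun k => NormedSpace.exp (t • X)
    (Function.update a i s k) (b k)) (Finset.mem_univ i), Function.update_self]
  have e : ∏ k ∈ Finset.univ.erase i, NormedSpace.exp (t • X) (Function.update a i s k) (b k) =
      ∏ k ∈ Finset.univ.erase i, NormedSpace.exp (t • X) (a k) (b k) := by
    refine Finset.prod_congr rfl fun k hk => ?_
    rw [Function.update_of_ne (Finset.ne_of_mem_erase hk)]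
  rw [e]
  ring

section gen

variable {E : Type} [NormedAddCommGroup E] [NormedSpace ℝ E] [FiniteDimensional ℝ E]

theorem clm_exp_mul (A : E →L[ℝ] E) : NormedSpace.exp A * NormedSpace.exp (-A) = 1 := by
  haveI : CompleteSpace E := FiniteDimensional.complete ℝ E
  letI : NormedAlgebra ℚ (E →L[ℝ] E) := NormedAlgebra.restrictScalars ℚ ℝ (E →L[ℝ] E)
  rw [← NormedSpace.exp_add_of_commute (Commute.neg_right (Commute.refl A)), add_neg_cancel,
    NormedSpace.exp_zero]

theorem clm_pow_mem {A : E →L[ℝ] E} {U : Submodule ℝ E} (hU : ∀ u ∈ U, A u ∈ U) (m : ℕ) :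
    ∀ w ∈ U, (A ^ m) w ∈ U := by
  induction m with
  | zero => intro w hw; rw [pow_zero]; exact hw
  | succ m ih =>
    intro w hw
    rw [pow_succ, ContinuousLinearMap.mul_apply]
    exact ih _ (hU _ hw)

theorem clm_exp_mem {A : E →L[ℝ] E} {U : Submodule ℝ E} (hU : ∀ u ∈ U, A u ∈ U) {u : E}
    (hu : u ∈ U) : NormedSpace.exp A u ∈ U := by
  haveI : CompleteSpace E := FiniteDimensional.complete ℝ E
  have h7 := NormedSpace.exp_series_hasSum_exp' (𝕂 := ℝ) A
  have h8 := (ContinuousLinearMap.apply ℝ E u).hasSum h7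
  have h9 : (ContinuousLinearMap.apply ℝ E u) (NormedSpace.exp A) ∈ U := by
    rw [← h8.tsum_eq]
    refine tsum_mem (Submodule.closed_of_finiteDimensional U) fun m => ?_
    simp only [Function.comp_apply, ContinuousLinearMap.apply_apply, ContinuousLinearMap.smul_apply]
    exact U.smul_mem _ (clm_pow_mem hU m u hu)
  exact h9

theorem ode_exp {A : E →L[ℝ] E} {F : ℝ → E} (hF : ∀ t, HasDerivAt F (A (F t)) t) :
    F 1 = NormedSpace.exp A (F 0) := by
  haveI : CompleteSpace E := FiniteDimensional.complete ℝ E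
  have h1 : ∀ t : ℝ, HasDerivAt (fun t : ℝ => NormedSpace.exp (t • (-A)) (F t)) 0 t := by
    intro t
    have h2 := (hasDerivAt_exp_smul_const (𝕂 := ℝ) (-A) t).clm_apply (hF t)
    refine h2.congr_deriv ?_
    rw [ContinuousLinearMap.mul_apply, ContinuousLinearMap.neg_apply, map_neg]
    simp
  have h3 : NormedSpace.exp ((1 : ℝ) • (-A)) (F 1) =
      NormedSpace.exp ((0 : ℝ) • (-A)) (F 0) :=
    is_const_of_deriv_eq_zero (fun t => (h1 t).differentiableAt) (fun t => (h1 t).deriv) 1 0
  simp only [zero_smul, NormedSpace.exp_zero, one_smul, ContinuousLinearMap.one_apply] at h3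
  rw [← h3, ← ContinuousLinearMap.mul_apply, clm_exp_mul, ContinuousLinearMap.one_apply]

end gen

theorem T_exp_mem {X : Mat n} {U : Submodule ℝ (V n j)} (hU : ∀ u ∈ U, D X u ∈ U) {u : V n j}
    (hu : u ∈ U) : T (NormedSpace.exp X) u ∈ U := by
  have h1 := ode_exp (A := LinearMap.toContinuousLinearMap (D X))
    (F := fun t : ℝ => T (NormedSpace.exp (t • X)) u) (fun t => hasDerivAt_T X u t)
  simp only [zero_smul, NormedSpace.exp_zero, one_smul, T_one] at h1
  rw [h1]
  exact clm_exp_mem (A := LinearMap.toContinuousLinearMap (D X)) hU hu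

end Vale.Agent.P092.H710.Re
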