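import Vale.Agent.P092.H793.Re.Blocks
import Mathlib.Analysis.SpecialFunctions.Exponential
import Mathlib.Analysis.Matrix.Normed
import Mathlib.LinearAlgebra.Lagrange

/-!
P092, project RE, block [RE-P] (helper710), part 1: Kronecker powers of matrices, acting on functions
on multi-indices, and their derivations.
-/

set_option linter.all false

open Matrix Filter Topology

namespace Vale.Agent.P092.H710.Re

open Vale.Agent.P092.H793.Re

variable {n j : ℕ}

/-- functions on multi-indices -/
abbrev V (n j : ℕ) := (Fin j → Fin n) → ℝ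

/-- `X` in the `i`-th slot -/
def io (i : Fin j) (X : Mat n) : V n j →ₗ[ℝ] V n j where
  toFun f a := ∑ t, X (a i) t * f (Function.update a i t)
  map_add' f g := by
    funext a
    simp only [Pi.add_apply, mul_add, Finset.sum_add_distrib]
  map_smul' c f := by
    funext a
    simp only [Pi.smul_apply, smul_eq_mul, RingHom.id_apply, Finset.mul_sum]
    refine Finset.sum_congr rfl fun t _ => by ring

theorem io_apply (i : Fin j) (X : Mat n) (f : V n j) (a : Fin j → Fin n) :
    io i X f a = ∑ t, X (a i) t * f (Function.update a i t) := rfl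

theorem io_add (i : Fin j) (X Y : Mat n) : io i (X + Y) = io i X + io i Y := by
  refine LinearMap.ext fun f => funext fun a => ?_
  simp only [io_apply, LinearMap.add_apply, Pi.add_apply, Matrix.add_apply, add_mul,
    Finset.sum_add_distrib]

theorem io_smul (i : Fin j) (c : ℝ) (X : Mat n) : io i (c • X) = c • io i X := by
  refine LinearMap.ext fun f => funext fun a => ?_
  simp only [io_apply, LinearMap.smul_apply, Pi.smul_apply, Matrix.smul_apply, smul_eq_mul,
    Finset.mul_sum]
  refine Finset.sum_congr rfl fun t _ => by ring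

theorem io_mul (i : Fin j) (X Y : Mat n) (f : V n j) : io i X (io i Y f) = io i (X * Y) f := by
  funext a
  simp only [io_apply, Function.update_self, Function.update_idem, Matrix.mul_apply,
    Finset.sum_mul, Finset.mul_sum]
  rw [Finset.sum_comm]
  refine Finset.sum_congr rfl fun s _ => Finset.sum_congr rfl fun t _ => by ring

theorem io_comm {i k : Fin j} (hik : i ≠ k) (X Y : Mat n) (f : V n j) :
    io i X (io k Y f) = io k Y (io i X f) := by
  funext a
  simp only [io_apply, Function.update_of_ne hik, Function.update_of_ne (Ne.symm hik),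
    Finset.mul_sum]
  rw [Finset.sum_comm]
  refine Finset.sum_congr rfl fun s _ => Finset.sum_congr rfl fun t _ => ?_
  rw [Function.update_comm hik]
  ring

theorem io_diag (i : Fin j) (x : Fin n → ℝ) (f : V n j) (a : Fin j → Fin n) :
    io i (diagonal x) f a = x (a i) * f a := by
  rw [io_apply, Finset.sum_eq_single (a i)]
  · rw [diagonal_apply_eq, Function.update_eq_self]
  · intro t _ ht
    rw [diagonal_apply_ne _ (Ne.symm ht), zero_mul]
  · intro h; exact absurd (Finset.mem_univ _) h

/-- the derivation -/
def D (X : Mat n) : V n j →ₗ[ℝ] V n j := ∑ i, io i X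

theorem D_apply (X : Mat n) (f : V n j) : D X f = ∑ i, io i X f := by
  simp only [D, LinearMap.sum_apply]

theorem D_apply2 (X : Mat n) (f : V n j) (a : Fin j → Fin n) :
    D X f a = ∑ i, ∑ t, X (a i) t * f (Function.update a i t) := by
  rw [D_apply, Finset.sum_apply]
  rfl

theorem D_add (X Y : Mat n) : D (j := j) (X + Y) = D X + D Y := by
  simp only [D, io_add, Finset.sum_add_distrib]

theorem D_smul (c : ℝ) (X : Mat n) : D (j := j) (c • X) = c • D X := by
  simp only [D, io_smul, Finset.smul_sum]

theorem D_bracket (X Y : Mat n) (f : V n j) :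
    D X (D Y f) = D Y (D X f) + D (X * Y - Y * X) f := by
  have key : ∀ X Y : Mat n, D X (D Y f) = ∑ i, ∑ k, io i X (io k Y f) := by
    intro X Y
    rw [D_apply, D_apply]
    simp only [map_sum]
  have h1 : D X (D Y f) - D Y (D X f) = D (X * Y - Y * X) f := by
    rw [key X Y, key Y X, Finset.sum_comm (f := fun i k => io i Y (io k X f)),
      ← Finset.sum_sub_distrib, D_apply]
    refine Finset.sum_congr rfl fun i _ => ?_
    rw [← Finset.sum_sub_distrib, Finset.sum_eq_single i]
    · rw [io_mul, io_mul, sub_eq_add_neg (X * Y), io_add, ← neg_one_smul ℝ (Y * X), io_smul]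
      simp only [LinearMap.add_apply, LinearMap.smul_apply, neg_one_smul, sub_eq_add_neg]
    · intro k _ hk
      rw [io_comm (Ne.symm hk), sub_self]
    · intro h; exact absurd (Finset.mem_univ _) h
  rw [← h1]; abel

/-- the Kronecker power -/
def T (g : Mat n) : V n j →ₗ[ℝ] V n j where
  toFun f a := ∑ b : Fin j → Fin n, (∏ i, g (a i) (b i)) * f b
  map_add' f g := by
    funext a
    simp only [Pi.add_apply, mul_add, Finset.sum_add_distrib]
  map_smul' c f := by
    funext a
    simp only [Pi.smul_apply, smul_eq_mul, RingHom.id_apply, Finset.mul_sum]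
    refine Finset.sum_congr rfl fun t _ => by ring

theorem T_apply (g : Mat n) (f : V n j) (a : Fin j → Fin n) :
    T g f a = ∑ b : Fin j → Fin n, (∏ i, g (a i) (b i)) * f b := rfl

theorem T_mul (g g' : Mat n) (f : V n j) : T (g * g') f = T g (T g' f) := by
  funext a
  simp only [T_apply, Finset.mul_sum]
  rw [Finset.sum_comm]
  refine Finset.sum_congr rfl fun b _ => ?_
  simp only [← mul_assoc, ← Finset.sum_mul, ← Finset.prod_mul_distrib, Matrix.mul_apply]
  congr 1
  rw [Finset.prod_univ_sum]
  simp only [Fintype.piFinset_univ]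

theorem T_diag (x : Fin n → ℝ) (f : V n j) (a : Fin j → Fin n) :
    T (diagonal x) f a = (∏ i, x (a i)) * f a := by
  rw [T_apply, Finset.sum_eq_single a]
  · simp only [diagonal_apply_eq]
  · intro b _ hb
    obtain ⟨i, hi⟩ := Function.ne_iff.1 hb
    have h0 : diagonal x (a i) (b i) = 0 := diagonal_apply_ne _ (fun e => hi e.symm)
    rw [Finset.prod_eq_zero (Finset.mem_univ i) h0, zero_mul]
  · intro h; exact absurd (Finset.mem_univ _) h

theorem T_one (f : V n j) : T (1 : Mat n) f = f := by
  funext a
  rw [← diagonal_one, T_diag]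
  simp

theorem T_bound {C B : ℝ} {g : Mat n} {f : V n j} (hg : ∀ a b, |g a b| ≤ C) (hf : ∀ a, |f a| ≤ B)
    (a : Fin j → Fin n) : |T g f a| ≤ (Fintype.card (Fin j → Fin n) : ℝ) * (C ^ j * B) := by
  rw [T_apply]
  refine (Finset.abs_sum_le_sum_abs _ _).trans ?_
  calc _ ≤ ∑ b : Fin j → Fin n, C ^ j * B := by
        refine Finset.sum_le_sum fun b _ => ?_
        rw [abs_mul, Finset.abs_prod]
        have h1 : ∏ i, |g (a i) (b i)| ≤ C ^ j := by
          calc ∏ i, |g (a i) (b i)| ≤ ∏ i : Fin j, C :=
                Finset.prod_le_prod (fun i _ => abs_nonneg _) fun i _ => hg _ _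
            _ = C ^ j := by simp
        have h0 : 0 ≤ ∏ i, |g (a i) (b i)| := Finset.prod_nonneg fun i _ => abs_nonneg _
        exact mul_le_mul h1 (hf b) (abs_nonneg _) (h0.trans h1)
    _ = _ := by rw [Finset.sum_const, nsmul_eq_mul]; rfl

end Vale.Agent.P092.H710.Re
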