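import Vale.Agent.P092.H710.Re.TExp

/-!
P092, project RE, block [RE-P] (helper710), part 3: Hadamard multipliers, the top vector, and the
submodule generated by it.
-/

set_option linter.all false

open Matrix Filter Topology

namespace Vale.Agent.P092.H710.Re

open Vale.Agent.P092.H793.Re

variable {n j : ℕ} {G : Type} [Group G] [TopologicalSpace G] {ρ : G →* SLn n}

theorem had_pow (he : IsClosedEmbedding ρ) {h : Fin n → ℝ} (hh : Lie ρ (diagonal h)) {X : Mat n}
    (hX : Lie ρ X) (k : ℕ) : Lie ρ (Matrix.of fun a b => (h a - h b) ^ k * X a b) := by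
  induction k with
  | zero =>
    have e : (Matrix.of fun a b => (h a - h b) ^ 0 * X a b) = X := by
      ext a b; simp
    rw [e]; exact hX
  | succ k ih =>
    have e : (Matrix.of fun a b => (h a - h b) ^ (k + 1) * X a b) =
        diagonal h * (Matrix.of fun a b => (h a - h b) ^ k * X a b) -
          (Matrix.of fun a b => (h a - h b) ^ k * X a b) * diagonal h := by
      ext a b
      rw [Matrix.sub_apply, diagonal_mul, mul_diagonal]
      simp only [Matrix.of_apply]
      ring
    rw [e]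
    exact lie_bracket he hh ih

theorem exists_poly (s : Finset ℝ) (φ : ℝ → ℝ) : ∃ P : Polynomial ℝ, ∀ t ∈ s, P.eval t = φ t := by
  refine ⟨Lagrange.interpolate s id φ, fun t ht => ?_⟩
  have h1 := Lagrange.eval_interpolate_at_node (s := s) (v := id) φ (Set.injOn_id _) ht
  rwa [id_eq] at h1

/-- Hadamard multipliers preserve the Lie algebra -/
theorem had (he : IsClosedEmbedding ρ) {h : Fin n → ℝ} (hh : Lie ρ (diagonal h)) {X : Mat n}
    (hX : Lie ρ X) (φ : ℝ → ℝ) : Lie ρ (Matrix.of fun a b => φ (h a - h b) * X a b) := by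
  classical
  obtain ⟨P, hP'⟩ := exists_poly (Finset.univ.image fun ab : Fin n × Fin n => h ab.1 - h ab.2) φ
  have hP : ∀ a b, P.eval (h a - h b) = φ (h a - h b) := by
    intro a b
    refine hP' _ ?_
    rw [Finset.mem_image]
    exact ⟨(a, b), Finset.mem_univ _, rfl⟩
  clear hP'
  have e : (Matrix.of fun a b => φ (h a - h b) * X a b) =
      ∑ k ∈ Finset.range (P.natDegree + 1), P.coeff k •
        (Matrix.of fun a b => (h a - h b) ^ k * X a b) := by
    ext a b
    rw [Matrix.sum_apply]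
    simp only [Matrix.of_apply, Matrix.smul_apply, smul_eq_mul]
    rw [← hP, Polynomial.eval_eq_sum_range, Finset.sum_mul]
    refine Finset.sum_congr rfl fun k _ => by ring
  rw [e, ← mem_lieS (he := he)]
  exact (lieS he).sum_mem fun k _ => (lieS he).smul_mem _ (mem_lieS.2 (had_pow he hh hX k))

/-- strictly lower elements of the Lie algebra -/
def Low (ρ : G →* SLn n) (h : Fin n → ℝ) (Y : Mat n) : Prop :=
  Lie ρ Y ∧ ∀ a b, Y a b ≠ 0 → h a < h b

/-- upper elements of the Lie algebra -/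
def Upp (ρ : G →* SLn n) (h : Fin n → ℝ) (Y : Mat n) : Prop :=
  Lie ρ Y ∧ ∀ a b, Y a b ≠ 0 → h b ≤ h a

theorem split (he : IsClosedEmbedding ρ) {h : Fin n → ℝ} (hh : Lie ρ (diagonal h)) {X : Mat n}
    (hX : Lie ρ X) : ∃ Y Z, Low ρ h Y ∧ Upp ρ h Z ∧ X = Y + Z := by
  classical
  refine ⟨_, _, ⟨had he hh hX (fun t => if t < 0 then 1 else 0), ?_⟩,
    ⟨had he hh hX (fun t => if t < 0 then 0 else 1), ?_⟩, ?_⟩
  · intro a b hab
    simp only [Matrix.of_apply] at hab
    by_contra hc
    rw [if_neg (by linarith), zero_mul] at hab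
    exact hab rfl
  · intro a b hab
    simp only [Matrix.of_apply] at hab
    by_contra hc
    rw [if_pos (by linarith), zero_mul] at hab
    exact hab rfl
  · ext a b
    simp only [Matrix.of_apply, Matrix.add_apply]
    split_ifs <;> simp

/-- the matrix of a multi-index relative to the family `e` -/
def dm (e : Fin j → Fin n) (a : Fin j → Fin n) : Matrix (Fin j) (Fin j) ℝ :=
  Matrix.of fun i l => if a i = e l then 1 else 0

/-- the top vector -/
noncomputable def tv (e : Fin j → Fin n) : V n j := fun a => (dm e a).det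

theorem tv_self {e : Fin j → Fin n} (he : Function.Injective e) : tv e e = 1 := by
  have : dm e e = 1 := by
    ext i l
    simp only [dm, Matrix.of_apply, Matrix.one_apply, he.eq_iff]
  rw [tv, this, det_one]

theorem tv_perm {e a : Fin j → Fin n} (h : tv e a ≠ 0) :
    ∃ σ : Equiv.Perm (Fin j), ∀ i, a (σ i) = e i := by
  rw [tv, Matrix.det_apply] at h
  obtain ⟨σ, _, hσ⟩ := Finset.exists_ne_zero_of_sum_ne_zero h
  refine ⟨σ, fun i => ?_⟩
  have h1 : ∏ i, dm e a (σ i) i ≠ 0 := by
    intro h0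
    rw [h0, smul_zero] at hσ
    exact hσ rfl
  have h2 := Finset.prod_ne_zero_iff.1 h1 i (Finset.mem_univ i)
  by_contra hc
  simp only [dm, Matrix.of_apply, if_neg hc] at h2
  exact h2 rfl

theorem tv_weight {e a : Fin j → Fin n} (h : tv e a ≠ 0) (x : Fin n → ℝ) :
    ∑ i, x (a i) = ∑ i, x (e i) := by
  obtain ⟨σ, hσ⟩ := tv_perm h
  rw [← Equiv.sum_comp σ (fun i => x (a i))]
  exact Finset.sum_congr rfl fun i _ => by rw [hσ]

theorem io_tv (e : Fin j → Fin n) (X : Mat n) (i : Fin j) (a : Fin j → Fin n) :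
    io i X (tv e) a = ((dm e a).updateRow i (fun l => X (a i) (e l))).det := by
  rw [io_apply]
  have h1 : ∀ t, dm e (Function.update a i t) =
      (dm e a).updateRow i (fun l => if t = e l then 1 else 0) := by
    intro t
    ext k l
    by_cases hk : k = i
    · subst hk
      simp only [dm, Matrix.of_apply, Function.update_self, Matrix.updateRow_self]
    · rw [Matrix.updateRow_ne hk]
      simp only [dm, Matrix.of_apply, Function.update_of_ne hk]
  simp only [tv, h1]
  rw [← Matrix.cramer_transpose_apply]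
  simp only [← Matrix.cramer_transpose_apply]
  have h2 : (fun l => X (a i) (e l)) =
      ∑ t, X (a i) t • (fun l : Fin j => if t = e l then (1 : ℝ) else 0) := by
    funext l
    rw [Finset.sum_apply]
    simp
  rw [h2, map_sum, Finset.sum_apply]
  refine Finset.sum_congr rfl fun t _ => ?_
  rw [map_smul, Pi.smul_apply, smul_eq_mul]

theorem sum_updateRow (A B : Matrix (Fin j) (Fin j) ℝ) :
    ∑ i, (A.updateRow i ((A * B) i)).det = B.trace * A.det := by
  have h1 : ∀ i, (A.updateRow i ((A * B) i)).det = ((A * B) * A.adjugate) i i := by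
    intro i
    rw [← Matrix.cramer_transpose_apply, Matrix.cramer_eq_adjugate_mulVec, ← adjugate_transpose,
      Matrix.mulVec, dotProduct, Matrix.mul_apply]
    refine Finset.sum_congr rfl fun l _ => ?_
    rw [Matrix.transpose_apply, mul_comm]
  simp only [h1]
  have h2 : ∑ i, ((A * B) * A.adjugate) i i = ((A * B) * A.adjugate).trace := rfl
  rw [h2, mul_assoc, Matrix.trace_mul_comm, mul_assoc, Matrix.adjugate_mul, Matrix.mul_smul,
    mul_one, Matrix.trace_smul, smul_eq_mul, mul_comm]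

/-- the top vector is an eigenvector of the upper elements, if `e` enumerates an upper set -/
theorem D_tv {h : Fin n → ℝ} {e : Fin j → Fin n} (hinj : Function.Injective e)
    (hS : ∀ a ∉ Set.range e, ∀ l, h a < h (e l)) {X : Mat n} (hX : ∀ a b, X a b ≠ 0 → h b ≤ h a) :
    D X (tv e) = (∑ l, X (e l) (e l)) • tv e := by
  funext a
  rw [D_apply, Finset.sum_apply, Pi.smul_apply, smul_eq_mul]
  simp only [io_tv]
  have h1 : ∀ i, (fun l => X (a i) (e l)) = (dm e a * (Matrix.of fun m l => X (e m) (e l))) i := by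
    intro i
    funext l
    rw [Matrix.mul_apply]
    simp only [dm, Matrix.of_apply]
    by_cases hi : a i ∈ Set.range e
    · obtain ⟨m, hm⟩ := hi
      rw [Finset.sum_eq_single m, if_pos hm.symm, one_mul, hm]
      · intro m' _ hm'
        rw [if_neg, zero_mul]
        intro h2
        exact hm' (hinj (h2.symm.trans hm.symm))
      · intro h; exact absurd (Finset.mem_univ _) h
    · have h2 : X (a i) (e l) = 0 := by
        by_contra hc
        exact absurd (hX _ _ hc) (not_le.2 (hS _ hi l))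
      rw [h2]
      symm
      refine Finset.sum_eq_zero fun m _ => ?_
      rw [if_neg, zero_mul]
      intro h3
      exact hi ⟨m, h3.symm⟩
  simp only [h1]
  rw [sum_updateRow]
  rfl

/-- the smallest subspace containing `tv e` and stable under the strictly lower elements -/
noncomputable def U (ρ : G →* SLn n) (h : Fin n → ℝ) (e : Fin j → Fin n) : Submodule ℝ (V n j) :=
  sInf {W | tv e ∈ W ∧ ∀ Y, Low ρ h Y → ∀ u ∈ W, D Y u ∈ W}

theorem tv_mem (h : Fin n → ℝ) (e : Fin j → Fin n) : tv e ∈ U ρ h e := by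
  rw [U, Submodule.mem_sInf]
  intro W hW
  exact hW.1

theorem low_mem {h : Fin n → ℝ} {e : Fin j → Fin n} {Y : Mat n} (hY : Low ρ h Y) {u : V n j}
    (hu : u ∈ U ρ h e) : D Y u ∈ U ρ h e := by
  rw [U, Submodule.mem_sInf] at hu ⊢
  intro W hW
  exact hW.2 Y hY u (hu W hW)

theorem U_le {h : Fin n → ℝ} {e : Fin j → Fin n} {W : Submodule ℝ (V n j)} (h1 : tv e ∈ W)
    (h2 : ∀ Y, Low ρ h Y → ∀ u ∈ W, D Y u ∈ W) : U ρ h e ≤ W := sInf_le ⟨h1, h2⟩

theorem D_mem (he : IsClosedEmbedding ρ) {h : Fin n → ℝ} (hh : Lie ρ (diagonal h))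
    {e : Fin j → Fin n} (hinj : Function.Injective e)
    (hS : ∀ a ∉ Set.range e, ∀ l, h a < h (e l)) {X : Mat n} (hX : Lie ρ X) :
    ∀ u ∈ U ρ h e, D X u ∈ U ρ h e := by
  let W : Submodule ℝ (V n j) :=
    { carrier := {u | u ∈ U ρ h e ∧ ∀ Z, Upp ρ h Z → D Z u ∈ U ρ h e}
      add_mem' := by
        intro u u' hu hu'
        refine ⟨(U ρ h e).add_mem hu.1 hu'.1, fun Z hZ => ?_⟩
        rw [map_add]
        exact (U ρ h e).add_mem (hu.2 Z hZ) (hu'.2 Z hZ)
      zero_mem' := ⟨(U ρ h e).zero_mem, fun Z _ => by rw [map_zero]; exact (U ρ h e).zero_mem⟩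
      smul_mem' := by
        intro c u hu
        refine ⟨(U ρ h e).smul_mem c hu.1, fun Z hZ => ?_⟩
        rw [map_smul]
        exact (U ρ h e).smul_mem c (hu.2 Z hZ) }
  have hW : U ρ h e ≤ W := by
    refine U_le ⟨tv_mem h e, fun Z hZ => ?_⟩ ?_
    · rw [D_tv hinj hS hZ.2]
      exact (U ρ h e).smul_mem _ (tv_mem h e)
    · intro Y hY u hu
      refine ⟨low_mem hY hu.1, fun Z hZ => ?_⟩
      rw [D_bracket]
      refine (U ρ h e).add_mem (low_mem hY (hu.2 Z hZ)) ?_
      obtain ⟨Y', Z', hY', hZ', e'⟩ := split he hh (lie_bracket he hZ.1 hY.1)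
      rw [e', D_add, LinearMap.add_apply]
      exact (U ρ h e).add_mem (low_mem hY' hu.1) (hu.2 Z' hZ')
  intro u hu
  obtain ⟨Y', Z', hY', hZ', e'⟩ := split he hh hX
  rw [e', D_add, LinearMap.add_apply]
  exact (U ρ h e).add_mem (low_mem hY' hu) ((hW hu).2 Z' hZ')

/-- the group preserves `U` -/
theorem T_mem (he : IsClosedEmbedding ρ)
    (hgen : Subgroup.closure {g : G | ∃ X, Lie ρ X ∧ (ρ g).1 = NormedSpace.exp X} = ⊤)
    {h : Fin n → ℝ} (hh : Lie ρ (diagonal h))
    {e : Fin j → Fin n} (hinj : Function.Injective e)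
    (hS : ∀ a ∉ Set.range e, ∀ l, h a < h (e l)) (g : G) :
    ∀ u ∈ U ρ h e, T (ρ g).1 u ∈ U ρ h e := by
  have key : ∀ X, Lie ρ X → ∀ u ∈ U ρ h e, T (NormedSpace.exp X) u ∈ U ρ h e := fun X hX u hu =>
    T_exp_mem (D_mem he hh hinj hS hX) hu
  have hg : g ∈ Subgroup.closure {g : G | ∃ X, Lie ρ X ∧ (ρ g).1 = NormedSpace.exp X} := by
    rw [hgen]; trivial
  have : (∀ u ∈ U ρ h e, T (ρ g).1 u ∈ U ρ h e) ∧ (∀ u ∈ U ρ h e, T (ρ g⁻¹).1 u ∈ U ρ h e) := by
    induction hg using Subgroup.closure_induction with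
    | mem g hg =>
      obtain ⟨X, hX, e1⟩ := hg
      refine ⟨fun u hu => by rw [e1]; exact key X hX u hu, fun u hu => ?_⟩
      have e2 : (ρ g⁻¹).1 = NormedSpace.exp (-X) := by
        rw [coe_inv, e1, Matrix.exp_neg]
      rw [e2]
      exact key _ (lie_neg hX) u hu
    | one =>
      simp only [inv_one, map_one]
      have h1 : ∀ u ∈ U ρ h e, T (1 : SLn n).1 u ∈ U ρ h e := by
        intro u hu
        rw [show (1 : SLn n).1 = (1 : Mat n) from rfl, T_one]
        exact hu
      exact ⟨h1, h1⟩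
    | mul g g' _ _ ih ih' =>
      refine ⟨fun u hu => ?_, fun u hu => ?_⟩
      · rw [map_mul, show (ρ g * ρ g').1 = (ρ g).1 * (ρ g').1 from rfl, T_mul]
        exact ih.1 _ (ih'.1 _ hu)
      · rw [_root_.mul_inv_rev, map_mul, show (ρ g'⁻¹ * ρ g⁻¹).1 = (ρ g'⁻¹).1 * (ρ g⁻¹).1 from rfl, T_mul]
        exact ih'.2 _ (ih.2 _ hu)
    | inv g _ ih =>
      refine ⟨ih.2, ?_⟩
      rw [inv_inv]
      exact ih.1
  exact this.1

end Vale.Agent.P092.H710.Re
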